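import Vale.Agent.P167.BR.Intf
import Vale.Agent.P167.FKA.Basic

/-!
# P167, general `q`, block REL: sealed sets near a free flat point, definitions
-/

namespace Vale.Agent.P167.H318.Rel

open Finset Relation Vale.Agent.P167.FK Vale.Agent.P167.FKA
open Vale.Agent.P167.BR (sites hbox Jn)

/-- `Z` is joined to `W` by a dual path of `Dc \ Z` -/
def Ast (Dc Z : Finset (ℤ × ℤ)) (W : Set (ℤ × ℤ)) : Set Cfg := {ω | Jn false (Dc \ Z) ω (sites Z) W}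

/-- `ω = ζ` on `Z` -/
def On (Z : Finset (ℤ × ℤ)) (ζ : Cfg) : Set Cfg := {ω | ∀ v ∈ Z, ω v = ζ v}

/-- `ζ` on `Z`, `η` elsewhere -/
def zon (Z : Finset (ℤ × ℤ)) (ζ η : Cfg) : Cfg := fun v => if v ∈ Z then ζ v else η v

/-- closed on `Z`, `η` elsewhere -/
def zof (Z : Finset (ℤ × ℤ)) (η : Cfg) : Cfg := fun v => if v ∈ Z then false else η v

/-- near `v₀` (radius `R`) the domains are half planes, closed outside. `D` = the random squares, `Dc` =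
the squares along which the dual paths run -/
structure Fl (D Dc : Finset (ℤ × ℤ)) (η : Cfg) (v₀ : ℤ × ℤ) (R : ℤ) : Prop where
  good : Good η
  sub : D ⊆ Dc
  dom : ∀ v ∈ Bq v₀ R, (v ∈ D ↔ v₀.2 ≤ v.2)
  domc : ∀ v ∈ Bq v₀ R, (v ∈ Dc ↔ v₀.2 ≤ v.2)
  out : ∀ v ∈ Bq v₀ R, v ∉ D → η v = false

/-- the squares of `Z` with a primal corner in common with a square above the line and outside of `Z`
are closed -/
def Sld (v₀ : ℤ × ℤ) (Z : Finset (ℤ × ℤ)) (ζ : Cfg) : Prop := ∀ v ∈ Z, ∀ w : ℤ × ℤ, w ∉ Z →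
  v₀.2 ≤ w.2 → (∃ s ∈ sites {v}, s ∈ sites {w} ∧ Even (s.1 + s.2)) → ζ v = false

/-- the target `W` contains a piece of the line, at distance `L` to the left of `v₀`; `D` contains the
strip -/
structure Lnd (D : Finset (ℤ × ℤ)) (v₀ : ℤ × ℤ) (m L K : ℤ) (W : Set (ℤ × ℤ)) : Prop where
  strip : ∀ v : ℤ × ℤ, v₀.1 - L - K * m ≤ v.1 → v.1 < v₀.1 + K * m → v₀.2 ≤ v.2 →
    v.2 < v₀.2 + K * m → v ∈ D
  foot : ∀ x : ℤ, v₀.1 - L - K * m ≤ x → x ≤ v₀.1 - L + K * m → Odd (x + v₀.2) → (x, v₀.2) ∈ W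

/-- the target is far from `v₀` -/
def Far (v₀ : ℤ × ℤ) (R : ℤ) (W : Set (ℤ × ℤ)) : Prop := ∀ w ∈ W, R ≤ nm (w - v₀)

end Vale.Agent.P167.H318.Rel
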