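import Vale.Agent.P167.H318.Rel.Defs
import Vale.Agent.P167.H167.Q.Mix

/-!
# P167, general `q`, block REL: sealed sets near a free flat point

`Z` a set of squares near the flat point `v₀`, `ζ` a configuration of `Z` such that the squares of `Z`
with a primal corner in common with a square outside of `Z` are closed (sealed). The law of the squares
of `D \ Z` given `ω = ζ` on `Z` is the law with `Z` closed.
-/

namespace Vale.Agent.P167.H318.Rel

open Finset Relation Vale.Agent.P167.FK Vale.Agent.P167.FKA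
open Vale.Agent.P145.FB (PStep PConn)
open Vale.Agent.P167.H259 (f_markov)
open Vale.Agent.P167.BR (sites hbox Jn)

variable {Q : ℝ} {D Dc Z : Finset (ℤ × ℤ)} {η ζ : Cfg} {v₀ : ℤ × ℤ} {r R : ℤ} {W : Set (ℤ × ℤ)}

theorem mem_Bq {x v : ℤ × ℤ} : v ∈ Bq x R ↔
    x.1 - R ≤ v.1 ∧ v.1 < x.1 + R ∧ x.2 - R ≤ v.2 ∧ v.2 < x.2 + R := by
  unfold Bq
  rw [Finset.mem_product, Finset.mem_Ico, Finset.mem_Ico]
  tauto

theorem mem_hbox {v : ℤ × ℤ} : v ∈ hbox v₀ r ↔
    v₀.1 - r ≤ v.1 ∧ v.1 < v₀.1 + r ∧ v₀.2 ≤ v.2 ∧ v.2 < v₀.2 + r := by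
  unfold hbox
  rw [Finset.mem_product, Finset.mem_Icc, Finset.mem_Icc]
  omega

theorem Fl.mono (h : Fl D Dc η v₀ R) (hr : r ≤ R) : Fl D Dc η v₀ r := by
  have hs : ∀ v ∈ Bq v₀ r, v ∈ Bq v₀ R := fun v hv => by
    rw [mem_Bq] at hv ⊢
    omega
  exact ⟨h.good, h.sub, fun v hv => h.dom v (hs v hv), fun v hv => h.domc v (hs v hv),
    fun v hv => h.out v (hs v hv)⟩

theorem Fl.hbox_sub (h : Fl D Dc η v₀ R) (hr : r ≤ R) (hZ : Z ⊆ hbox v₀ r) : Z ⊆ D := by
  intro v hv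
  have h1 := hZ hv
  rw [mem_hbox] at h1
  exact (h.dom v (by rw [mem_Bq]; omega)).2 h1.2.2.1

theorem mem_site {v s : ℤ × ℤ} : s ∈ sites {v} ↔
    (s.1 = v.1 ∨ s.1 = v.1 + 1) ∧ (s.2 = v.2 ∨ s.2 = v.2 + 1) := by
  unfold sites
  rw [Finset.mem_biUnion]
  simp only [Finset.mem_singleton, Finset.mem_insert, exists_eq_left]
  constructor
  · rintro (h | h | h | h) <;> rw [h] <;> simp
  · rintro ⟨h1 | h1, h2 | h2⟩
    · left; exact Prod.ext h1 h2
    · right; right; left; exact Prod.ext h1 h2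
    · right; left; exact Prod.ext h1 h2
    · right; right; right; exact Prod.ext h1 h2

/-- the ends of a step are corners of its square -/
theorem step_site {F : Set (ℤ × ℤ)} {s t : ℤ × ℤ} (h : PStep F s t) :
    s ∈ sites {(min s.1 t.1, min s.2 t.2)} ∧ t ∈ sites {(min s.1 t.1, min s.2 t.2)} := by
  obtain ⟨h1, h2, -⟩ := h
  rw [mem_site, mem_site]
  dsimp only
  omega

theorem pa_site (v : ℤ × ℤ) : pa v ∈ sites {v} ∧ Even ((pa v).1 + (pa v).2) := by
  rw [mem_site]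
  unfold pa
  split_ifs with h
  · exact ⟨⟨Or.inl rfl, Or.inl rfl⟩, h⟩
  · refine ⟨⟨Or.inl rfl, Or.inr rfl⟩, ?_⟩
    rw [Int.not_even_iff_odd] at h
    dsimp only
    rw [← add_assoc]
    exact h.add_one

theorem step_even {F : Set (ℤ × ℤ)} {s t : ℤ × ℤ} (h : PStep F s t) (hs : Even (s.1 + s.2)) :
    Even (t.1 + t.2) := by
  obtain ⟨h1, h2, -⟩ := h
  rw [Int.even_iff] at hs ⊢
  omega

/-- the squares of `Z` are not used by the open paths outside of `Z` -/
theorem pc_zon (hF : Fl D Dc η v₀ (r + 1)) (hZ : Z ⊆ hbox v₀ r) (hS : Sld v₀ Z ζ)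
    {S : Finset (ℤ × ℤ)} {a t : ℤ × ℤ} (ha : a ∈ D \ Z)
    (h : PC (cf (D \ Z) (zon Z ζ η) S) (pa a) t) : PC (cf (D \ Z) (zof Z η) S) (pa a) t := by
  set ω := cf (D \ Z) (zon Z ζ η) S with hω
  -- the squares above the line
  have key : ∀ w, w ∉ Z → (w = a ∨ ω w = true) → ∀ v ∈ Z, ∀ s, s ∈ sites {v} → s ∈ sites {w} →
      v₀.2 ≤ w.2 := by
    intro w hwZ hw v hv s hs hs'
    rw [mem_site] at hs hs'
    have hv' := hZ hv
    rw [mem_hbox] at hv'
    have hB : w ∈ Bq v₀ (r + 1) := by rw [mem_Bq]; omega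
    rcases hw with rfl | hw
    · exact (hF.dom w hB).1 (Finset.mem_sdiff.1 ha).1
    · by_contra hc
      have h1 : w ∉ D := fun h1 => hc ((hF.dom w hB).1 h1)
      have h2 := hF.out w hB h1
      rw [hω, cf_out fun h3 => h1 (Finset.mem_sdiff.1 h3).1] at hw
      unfold zon at hw
      rw [if_neg hwZ, h2] at hw
      exact Bool.false_ne_true hw
  have main : PC (cf (D \ Z) (zof Z η) S) (pa a) t ∧ Even (t.1 + t.2) ∧
      ∃ w, w ∉ Z ∧ (w = a ∨ ω w = true) ∧ t ∈ sites {w} := by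
    induction h with
    | refl => exact ⟨ReflTransGen.refl, (pa_site a).2, a, (Finset.mem_sdiff.1 ha).2, Or.inl rfl,
        (pa_site a).1⟩
    | @tail s t _ hst ih =>
      obtain ⟨h1, h2, w, h3, h4, h5⟩ := ih
      obtain ⟨h6, h7⟩ := step_site hst
      have h8 : ω (min s.1 t.1, min s.2 t.2) = true := hst.2.2
      have h9 : (min s.1 t.1, min s.2 t.2) ∉ Z := by
        intro hc
        have h10 := hS _ hc w h3 (key w h3 h4 _ hc s h6 h5) ⟨s, h6, h5, h2⟩
        rw [hω, cf_out fun h3 => (Finset.mem_sdiff.1 h3).2 hc] at h8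
        unfold zon at h8
        rw [if_pos hc, h10] at h8
        exact Bool.false_ne_true h8
      refine ⟨h1.tail ⟨hst.1, hst.2.1, ?_⟩, step_even hst h2, _, h9, Or.inr h8, h7⟩
      show cf (D \ Z) (zof Z η) S _ = true
      rw [← h8, hω]
      by_cases h11 : (min s.1 t.1, min s.2 t.2) ∈ D \ Z
      · simp only [cf, if_pos h11]
      · rw [cf_out h11, cf_out h11]
        unfold zon zof
        rw [if_neg h9, if_neg h9]
  exact main.1

theorem PC_mono' {ω ω' : Cfg} (h : ∀ v, ω v = true → ω' v = true) {s t : ℤ × ℤ} (hp : PC ω s t) :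
    PC ω' s t := ReflTransGen.mono (fun _ _ hab => ⟨hab.1, hab.2.1, h _ hab.2.2⟩) _ _ hp

theorem good_zon (hQ : Good η) : Good (zon Z ζ η) := by
  have h := f_good.1 Z η (Z.filter fun v => ζ v = true) hQ
  have e : cf Z η (Z.filter fun v => ζ v = true) = zon Z ζ η := by
    funext v
    unfold cf zon
    split_ifs with hv
    · by_cases h1 : ζ v = true
      · simp [hv, h1]
      · have h2 : ζ v = false := by simpa using h1
        simp [h2]
    · rfl
  rwa [e] at h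

theorem good_zof (hQ : Good η) : Good (zof Z η) := good_zon (ζ := fun _ => false) hQ

/-- **the law of `D \ Z` does not depend on the sealed configuration of `Z`** -/
theorem ex_zon (hQ : 0 < Q) (hF : Fl D Dc η v₀ (r + 1)) (hZ : Z ⊆ hbox v₀ r) (hS : Sld v₀ Z ζ)
    {F : Cfg → ℝ} (hFZ : Ind Z F) : Ex Q (D \ Z) (zon Z ζ η) F = Ex Q (D \ Z) (zof Z η) F := by
  -- a local version
  set F' : Cfg → ℝ := fun ω => F (fun v => if v ∈ D \ Z then ω v else η v) with hF'
  have h1 : Ex Q (D \ Z) (zon Z ζ η) F = Ex Q (D \ Z) (zon Z ζ η) F' := by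
    refine Ex_congr fun S _ => hFZ _ _ fun v hv => ?_
    by_cases h : v ∈ D \ Z
    · rw [if_pos h]
    · rw [if_neg h, cf_out h]
      unfold zon
      rw [if_neg hv]
  have h2 : Ex Q (D \ Z) (zof Z η) F = Ex Q (D \ Z) (zof Z η) F' := by
    refine Ex_congr fun S _ => hFZ _ _ fun v hv => ?_
    by_cases h : v ∈ D \ Z
    · rw [if_pos h]
    · rw [if_neg h, cf_out h]
      unfold zof
      rw [if_neg hv]
  rw [h1, h2]
  refine H167.Q.Ex_eq_of_PC hQ (good_zon hF.good) (good_zof hF.good) (fun S _ a ha _ =>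
    ⟨fun h => pc_zon hF hZ hS ha h, fun h => PC_mono' (fun v hv => ?_) h⟩) fun ω ω' h => ?_
  · by_cases h3 : v ∈ D \ Z
    · simp only [cf, if_pos h3] at hv ⊢
      exact hv
    · rw [cf_out h3] at hv ⊢
      unfold zof at hv
      unfold zon
      split_ifs at hv ⊢ with h4
      · exact hv
  · rw [hF']
    show F _ = F _
    congr 1
    funext v
    split_ifs with h3
    · exact h v h3
    · rfl

/-- expectations depend on the outside configuration off the domain only -/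
theorem ex_out {A : Finset (ℤ × ℤ)} {ω ω' : Cfg} (h : ∀ v, v ∉ A → ω v = ω' v) (F : Cfg → ℝ) :
    Ex Q A ω F = Ex Q A ω' F := by
  have e : ∀ S, cf A ω S = cf A ω' S := fun S => by
    funext v
    unfold cf
    split_ifs with hv
    · rfl
    · exact h v hv
  unfold Ex Zq
  simp only [e]

/-- **(R1)** splitting -/
theorem split (hQ : 0 < Q) (hF : Fl D Dc η v₀ (r + 1)) (hZ : Z ⊆ hbox v₀ r) (hS : Sld v₀ Z ζ)
    {F : Cfg → ℝ} (hFZ : Ind Z F) :
    Ex Q D η (fun ω => (On Z ζ).indicator 1 ω * F ω) =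
      Pr Q D η (On Z ζ) * Ex Q (D \ Z) (zof Z η) F := by
  have hZD : Z ⊆ D := hF.hbox_sub (by omega) hZ
  have hInd : Ind (D \ Z) ((On Z ζ).indicator (1 : Cfg → ℝ)) := by
    intro ω ω' h
    have h1 : ω ∈ On Z ζ ↔ ω' ∈ On Z ζ := by
      refine forall₂_congr fun v hv => ?_
      rw [h v fun hc => (Finset.mem_sdiff.1 hc).2 hv]
    by_cases h2 : ω ∈ On Z ζ
    · rw [Set.indicator_of_mem h2, Set.indicator_of_mem (h1.1 h2)]
      rfl
    · rw [Set.indicator_of_notMem h2, Set.indicator_of_notMem fun h3 => h2 (h1.2 h3)]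
  rw [markov f_markov hQ Finset.sdiff_subset hF.good hInd]
  have e : Ex Q D η (fun ω => (On Z ζ).indicator 1 ω * Ex Q (D \ Z) ω F) =
      Ex Q D η (fun ω => Ex Q (D \ Z) (zof Z η) F * (On Z ζ).indicator 1 ω) := by
    refine Ex_congr fun S _ => ?_
    rw [mul_comm]
    by_cases h2 : cf D η S ∈ On Z ζ
    · congr 1
      rw [← ex_zon hQ hF hZ hS hFZ]
      refine ex_out (fun v hv => ?_) F
      unfold zon
      by_cases h3 : v ∈ Z
      · rw [if_pos h3]
        exact h2 v h3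
      · rw [if_neg h3, cf_out]
        intro h4
        exact hv (Finset.mem_sdiff.2 ⟨h4, h3⟩)
    · rw [Set.indicator_of_notMem h2, mul_zero, mul_zero]
  rw [e, Ex_mul_left, mul_comm]
  rfl

theorem ind_Ast : Ind Z ((Ast Dc Z W).indicator (1 : Cfg → ℝ)) := by
  have key : ∀ ω ω' : Cfg, (∀ v, v ∉ Z → ω v = ω' v) → ω ∈ Ast Dc Z W → ω' ∈ Ast Dc Z W := by
    rintro ω ω' h ⟨u, hu, t, ht, hp, h1⟩
    refine ⟨u, hu, t, ht, hp, ReflTransGen.mono (fun x y hxy => ⟨hxy.1, hxy.2.1, ?_, hxy.2.2.2⟩)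
      _ _ h1⟩
    show ω' _ = false
    rw [← h _ (Finset.mem_sdiff.1 (Finset.mem_coe.1 hxy.2.2.2)).2]
    exact hxy.2.2.1
  intro ω ω' h
  by_cases h2 : ω ∈ Ast Dc Z W
  · rw [Set.indicator_of_mem h2, Set.indicator_of_mem (key _ _ h h2)]
    rfl
  · rw [Set.indicator_of_notMem h2, Set.indicator_of_notMem fun h3 =>
      h2 (key _ _ (fun v hv => (h v hv).symm) h3)]

end Vale.Agent.P167.H318.Rel
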