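import Vale.Agent.P167.H318.Rel.Law
import Vale.Agent.P167.H469.BArm

/-!
# P167, general `q`, block REL: sealed sets near a free flat point, connection to the line

`U1 v₀ Z R`: the set `Z` is joined to the distance `R` of `v₀` by closed squares. The event `Ast`
implies `U1` if the target is far; conversely, `U1`, two half circuits and a crossing of a rectangle
imply `Ast` if the target contains a piece of the line.
-/

namespace Vale.Agent.P167.H318.Rel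

open Finset Relation Vale.Agent.P167.FK Vale.Agent.P167.FKA
open Vale.Agent.P145.FB (PStep PConn)
open Vale.Agent.P153.Topo (Rect mem_rect)
open Vale.Agent.P167.BR (sites hbox Jn)
open Vale.Agent.P167.H632 (IncC cs pr nm_le le_nm cs_compl)
open Vale.Agent.P167.H704 (Hc)
open Vale.Agent.P167.H704.Q (rs_fk prC_inter)
open Vale.Agent.P167.H192.TA (Xc Pw dq sr dF mem_dF cut_dq arc_full)
open Vale.Agent.P167.H469 (join_half Ks Cn)

variable {Q : ℝ} {D Dc Z : Finset (ℤ × ℤ)} {η ζ : Cfg} {v₀ b : ℤ × ℤ} {r R m L K : ℤ}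
  {W : Set (ℤ × ℤ)} {ω : Cfg}

/-- `Z` is joined to distance `R` of `v₀` by closed squares. -/
def U1 (v₀ : ℤ × ℤ) (Z : Finset (ℤ × ℤ)) (R : ℤ) : Set Cfg :=
  {ω | Jn false (hbox v₀ R \ Z) ω (sites Z) {t | R ≤ nm (t - v₀)}}

theorem mem_sites' {s : ℤ × ℤ} : s ∈ sites Z ↔ ∃ v ∈ Z, s ∈ sites {v} := by
  unfold sites
  simp only [Finset.mem_biUnion, Finset.mem_singleton, exists_eq_left]

theorem sites_box (hZ : Z ⊆ hbox v₀ r) {s : ℤ × ℤ} (hs : s ∈ sites Z) :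
    v₀.2 ≤ s.2 ∧ nm (s - v₀) ≤ r := by
  obtain ⟨v, hv, h⟩ := mem_sites'.1 hs
  have hv' := hZ hv
  rw [mem_hbox] at hv'
  rw [mem_site] at h
  rw [nm_le]
  simp only [Prod.fst_sub, Prod.snd_sub]
  omega

/-- A half circuit which is joined to all the crossings of the half annulus. -/
theorem circ (hr : 1 ≤ r) (hrR : r ≤ R) (h : ω ∉ Xc true b r R) :
    ∃ x, b.1 - R ≤ x ∧ x ≤ b.1 - r ∧ (x + b.2) % 2 = 1 ∧ ∀ y y' : ℤ × ℤ, y ∈ sr b r R →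
      nm (y - b) ≤ r → R ≤ nm (y' - b) → (y.1 + y.2) % 2 = 1 → Pw (cs false ω ∩ dq b r R) y y' →
      Pw (cs false ω ∩ dq b r R) y (x, b.2) := by
  obtain ⟨x, x', x1, x2, x3, x4, x5, x6⟩ := arc_full (F := cs true ω) (b := b) (r := r) (R := R)
    (e := 0) (Or.inl rfl) hr hrR (fun y y' hy hye hyr hyy' => by
      by_contra hc
      exact h ⟨y, y', hy, hye, hyr, hyy', by omega⟩)
  rw [cs_compl, Bool.not_true] at x6
  refine ⟨x, x1, x2, by omega, fun y y' hy hyr hy' hye hyy' => ?_⟩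
  have hpsr : ((x, b.2) : ℤ × ℤ) ∈ sr b r R := by
    simp only [sr, Set.mem_ofPred_eq]
    omega
  exact join_half (F := cs false ω) (e := 1) (p := (x, b.2)) (q := (x', b.2)) (Or.inr rfl) hr hrR hy
    hyr hy' hye hyy' hpsr x2 rfl (by dsimp only; omega) x3 rfl x6

/-- A path along a rectangle, by squares. -/
theorem pw_rect {F : Set (ℤ × ℤ)} {a c p q : ℤ} {s t : ℤ × ℤ} (h : PConn F (Rect a c p q) s t) :
    Pw (F ∩ {v | a ≤ v.1 ∧ v.1 < c ∧ p ≤ v.2 ∧ v.2 < q}) s t := by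
  obtain ⟨k1, k2⟩ := h
  induction k2 with
  | refl => exact ReflTransGen.refl
  | @tail x y hx hxy ih =>
    have hxm := (show PConn F (Rect a c p q) s x from ⟨k1, hx⟩).right_mem
    have hym := hxy.2
    rw [mem_rect] at hxm hym
    obtain ⟨⟨p1, p2, p3⟩, -⟩ := hxy
    refine ih.tail ⟨p1, p2, p3, ?_⟩
    simp only [Set.mem_ofPred_eq]
    omega

/-- **Deterministic lemma.** -/
theorem ast_of (hF : D ⊆ Dc) (hZ : Z ⊆ hbox v₀ m) (hm : 1 ≤ m) (hmR : m ≤ R) (hRK : R ≤ K * m)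
    (hL : m + R ≤ L) (hLn : Lnd D v₀ m L K W) (h1 : ω ∈ U1 v₀ Z R) (h2 : ω ∉ Xc true v₀ m R)
    (h3 : ω ∉ Xc true (v₀.1 - L, v₀.2) m R)
    (h4 : ω ∈ Hc false (v₀.1 - L) (v₀.1 - m) v₀.2 (v₀.2 + m)) : ω ∈ Ast Dc Z W := by
  obtain ⟨u, hu, t, ht, hpu, hut⟩ := h1
  obtain ⟨s, t', hs, ht', hps, hst⟩ := h4
  obtain ⟨x, x1, x2, x3, x4⟩ := circ hm hmR h2
  obtain ⟨z, z1, z2, z3, z4⟩ := circ hm hmR h3
  have hub := sites_box hZ hu
  have hpf : pr false = 1 := rfl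
  rw [hpf] at hpu hps
  have hs2 := hst.left_mem
  have ht2 := hst.right_mem
  rw [mem_rect] at hs2 ht2
  have hst' := pw_rect hst
  have hsp := hst'.parity
  -- all the squares are in `Dc \ Z`
  have inD : ∀ v : ℤ × ℤ, v₀.1 - L - K * m ≤ v.1 → v.1 < v₀.1 + K * m → v₀.2 ≤ v.2 →
      v.2 < v₀.2 + K * m → (v ∉ hbox v₀ m) → v ∈ ((Dc \ Z : Finset (ℤ × ℤ)) : Set (ℤ × ℤ)) := by
    intro v g1 g2 g3 g4 g5
    exact Finset.mem_coe.2 (Finset.mem_sdiff.2 ⟨hF (hLn.strip v g1 g2 g3 g4), fun g => g5 (hZ g)⟩)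
  have s1 : dq v₀ m R ⊆ ((Dc \ Z : Finset (ℤ × ℤ)) : Set (ℤ × ℤ)) := by
    intro v hv
    simp only [dq, Set.mem_ofPred_eq] at hv
    refine inD v (by omega) (by omega) (by omega) (by omega) ?_
    rw [mem_hbox]
    omega
  have s2 : dq (v₀.1 - L, v₀.2) m R ⊆ ((Dc \ Z : Finset (ℤ × ℤ)) : Set (ℤ × ℤ)) := by
    intro v hv
    simp only [dq, Set.mem_ofPred_eq] at hv
    refine inD v (by omega) (by omega) (by omega) (by omega) ?_
    rw [mem_hbox]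
    omega
  have s3 : {v : ℤ × ℤ | v₀.1 - L ≤ v.1 ∧ v.1 < v₀.1 - m ∧ v₀.2 ≤ v.2 ∧ v.2 < v₀.2 + m} ⊆
      ((Dc \ Z : Finset (ℤ × ℤ)) : Set (ℤ × ℤ)) := by
    intro v hv
    simp only [Set.mem_ofPred_eq] at hv
    refine inD v (by omega) (by omega) (by omega) (by omega) ?_
    rw [mem_hbox]
    omega
  have s4 : ((hbox v₀ R \ Z : Finset (ℤ × ℤ)) : Set (ℤ × ℤ)) ⊆
      ((Dc \ Z : Finset (ℤ × ℤ)) : Set (ℤ × ℤ)) := by
    intro v hv
    rw [Finset.mem_coe, Finset.mem_sdiff, mem_hbox] at hv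
    exact Finset.mem_coe.2 (Finset.mem_sdiff.2 ⟨hF (hLn.strip v (by omega) (by omega) (by omega)
      (by omega)), hv.2⟩)
  -- from `Z` to the half circuit of `v₀`
  obtain ⟨y0, y1, a1, a2, a3, a4, a5⟩ := cut_dq (G := cs false ω ∩
    ((hbox v₀ R \ Z : Finset (ℤ × ℤ)) : Set (ℤ × ℤ))) hmR hub.1 (fun v hv => by
      have := hv.2
      rw [Finset.mem_coe, Finset.mem_sdiff, mem_hbox] at this
      omega) hut hub.2 ht
  have p1 : Pw (cs false ω ∩ ((Dc \ Z : Finset (ℤ × ℤ)) : Set (ℤ × ℤ))) u y0 :=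
    a1.mono (Set.inter_subset_inter_right _ s4)
  have p2 : Pw (cs false ω ∩ ((Dc \ Z : Finset (ℤ × ℤ)) : Set (ℤ × ℤ))) y0 (x, v₀.2) :=
    (x4 y0 y1 a2 a3 a5 (by rw [← a1.parity, hpu])
      (a4.mono (Set.inter_subset_inter_left _ Set.inter_subset_left))).mono
      (Set.inter_subset_inter_right _ s1)
  -- from the half circuit of `v₀` to the crossing
  obtain ⟨c0, c1, d1, d2, d3, d4, d5⟩ := cut_dq (b := v₀) (G := cs false ω ∩
    {v : ℤ × ℤ | v₀.1 - L ≤ v.1 ∧ v.1 < v₀.1 - m ∧ v₀.2 ≤ v.2 ∧ v.2 < v₀.2 + m}) hmR (y := t')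
    (y' := s) (by omega) (fun v hv => hv.2.2.2.1) hst'.symm
    (by rw [nm_le]; simp only [Prod.fst_sub, Prod.snd_sub]; omega)
    (by rw [le_nm]; simp only [Prod.fst_sub, Prod.snd_sub]; omega)
  have p3 : Pw (cs false ω ∩ ((Dc \ Z : Finset (ℤ × ℤ)) : Set (ℤ × ℤ))) c0 (x, v₀.2) :=
    (x4 c0 c1 d2 d3 d5 (by rw [← d1.parity, ← hsp, hps])
      (d4.mono (Set.inter_subset_inter_left _ Set.inter_subset_left))).mono
      (Set.inter_subset_inter_right _ s1)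
  have p4 : Pw (cs false ω ∩ ((Dc \ Z : Finset (ℤ × ℤ)) : Set (ℤ × ℤ))) t' c0 :=
    d1.mono (Set.inter_subset_inter_right _ s3)
  -- from the crossing to the half circuit of the target
  obtain ⟨e0, e1, f1, f2, f3, f4, f5⟩ := cut_dq (b := (v₀.1 - L, v₀.2)) (G := cs false ω ∩
    {v : ℤ × ℤ | v₀.1 - L ≤ v.1 ∧ v.1 < v₀.1 - m ∧ v₀.2 ≤ v.2 ∧ v.2 < v₀.2 + m}) hmR (y := s)
    (y' := t') (by dsimp only; omega) (fun v hv => hv.2.2.2.1) hst'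
    (by rw [nm_le]; simp only [Prod.fst_sub, Prod.snd_sub]; omega)
    (by rw [le_nm]; simp only [Prod.fst_sub, Prod.snd_sub]; omega)
  have p5 : Pw (cs false ω ∩ ((Dc \ Z : Finset (ℤ × ℤ)) : Set (ℤ × ℤ))) e0 (z, v₀.2) :=
    (z4 e0 e1 f2 f3 f5 (by rw [← f1.parity, hps])
      (f4.mono (Set.inter_subset_inter_left _ Set.inter_subset_left))).mono
      (Set.inter_subset_inter_right _ s2)
  have p6 : Pw (cs false ω ∩ ((Dc \ Z : Finset (ℤ × ℤ)) : Set (ℤ × ℤ))) s e0 :=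
    f1.mono (Set.inter_subset_inter_right _ s3)
  have p7 : Pw (cs false ω ∩ ((Dc \ Z : Finset (ℤ × ℤ)) : Set (ℤ × ℤ))) t' s :=
    hst'.symm.mono (Set.inter_subset_inter_right _ s3)
  dsimp only at z1 z2 z3
  refine ⟨u, hu, (z, v₀.2), hLn.foot z (by omega) (by omega) ?_, by rw [hpu]; rfl,
    p1.trans (p2.trans (p3.symm.trans (p4.symm.trans (p7.trans (p6.trans p5)))))⟩
  rw [Int.odd_iff]
  exact z3

/-- **Far targets.** -/
theorem ast_sub (hF : Fl D Dc η v₀ R) (hZ : Z ⊆ hbox v₀ m) (hmR : m < R) (hW : Far v₀ R W) :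
    Ast Dc Z W ⊆ U1 v₀ Z R := by
  rintro ω ⟨u, hu, t, ht, hpu, hut⟩
  have hub := sites_box hZ hu
  have key : ∀ y, Pw (cs false ω ∩ ((Dc \ Z : Finset (ℤ × ℤ)) : Set (ℤ × ℤ))) u y →
      (∃ t, R ≤ nm (t - v₀) ∧
        Pw (cs false ω ∩ ((hbox v₀ R \ Z : Finset (ℤ × ℤ)) : Set (ℤ × ℤ))) u t) ∨
      (nm (y - v₀) ≤ R - 1 ∧
        Pw (cs false ω ∩ ((hbox v₀ R \ Z : Finset (ℤ × ℤ)) : Set (ℤ × ℤ))) u y) := by
    intro y hy
    induction hy with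
    | refl => exact Or.inr ⟨by omega, ReflTransGen.refl⟩
    | @tail y y' _ hs ih =>
      rcases ih with ih | ⟨i1, i2⟩
      · exact Or.inl ih
      · obtain ⟨s1, s2, s3, s4⟩ := hs
        rw [Finset.mem_coe, Finset.mem_sdiff] at s4
        rw [nm_le] at i1
        simp only [Prod.fst_sub, Prod.snd_sub] at i1
        have hB : (min y.1 y'.1, min y.2 y'.2) ∈ Bq v₀ R := by
          rw [mem_Bq]; dsimp only; omega
        have h1 := (hF.domc _ hB).1 s4.1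
        have h2 : (min y.1 y'.1, min y.2 y'.2) ∈ hbox v₀ R := by
          rw [mem_Bq] at hB
          rw [mem_hbox]
          exact ⟨hB.1, hB.2.1, h1, hB.2.2.2⟩
        have h3 : Pw (cs false ω ∩ ((hbox v₀ R \ Z : Finset (ℤ × ℤ)) : Set (ℤ × ℤ))) u y' :=
          i2.tail ⟨s1, s2, s3, Finset.mem_coe.2 (Finset.mem_sdiff.2 ⟨h2, s4.2⟩)⟩
        by_cases h4 : R ≤ nm (y' - v₀)
        · exact Or.inl ⟨y', h4, h3⟩
        · exact Or.inr ⟨by omega, h3⟩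
  rcases key t hut with ⟨t', h1, h2⟩ | ⟨h1, -⟩
  · exact ⟨u, hu, t', h1, hpu, h2⟩
  · have := hW t ht
    omega

/-! ### Probabilities -/

theorem inc_Hc (e : Bool) (a c p q : ℤ) : IncC e (Hc e a c p q) := by
  rintro o o' ho ⟨u, v, h1, h2, h3, h4⟩
  exact ⟨u, v, h1, h2, h3, h4.mono (fun w hw => ho w hw) subset_rfl⟩

theorem inc_U1 : IncC false (U1 v₀ Z R) := by
  rintro o o' ho ⟨u, hu, t, ht, hp, h4⟩
  exact ⟨u, hu, t, ht, hp, Pw.mono (Set.inter_subset_inter_left _ fun w hw => ho w hw) h4⟩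

theorem loc_U1 : Loc (hbox v₀ R \ Z) ((U1 v₀ Z R).indicator (1 : Cfg → ℝ)) := by
  have key : ∀ ω ω' : Cfg, (∀ v ∈ hbox v₀ R \ Z, ω v = ω' v) → ω ∈ U1 v₀ Z R → ω' ∈ U1 v₀ Z R := by
    rintro ω ω' h ⟨u, hu, t, ht, hp, h1⟩
    refine ⟨u, hu, t, ht, hp, ReflTransGen.mono (fun x y hxy => ⟨hxy.1, hxy.2.1, ?_, hxy.2.2.2⟩)
      _ _ h1⟩
    show ω' _ = false
    rw [← h _ (Finset.mem_coe.1 hxy.2.2.2)]
    exact hxy.2.2.1
  intro ω ω' h
  by_cases h2 : ω ∈ U1 v₀ Z R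
  · rw [Set.indicator_of_mem h2, Set.indicator_of_mem (key _ _ h h2)]
    rfl
  · rw [Set.indicator_of_notMem h2, Set.indicator_of_notMem fun h3 =>
      h2 (key _ _ (fun v hv => (h v hv).symm) h3)]

/-- Closing `Z` increases the probabilities of the decreasing events. -/
theorem pr_close (hQ : 1 ≤ Q) (hη : Good η) {A : Set Cfg} (hA : IncC false A) :
    Pr Q D η A ≤ Pr Q (D \ Z) (zof Z η) A := by
  have hd : DecS A := H704.Q.IncC.decS hA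
  have h1 := QM.Ex_up (Q := Q) hQ (U := D \ Z) (U' := D) Finset.sdiff_subset (η := zof Z η)
    (η' := η) (F := fun ω => - A.indicator 1 ω) hd.incF (good_zof hη) hη (fun v hv h => ?_)
  · rw [Ex_neg, Ex_neg] at h1
    exact neg_le_neg_iff.1 h1
  · unfold zof at h
    split_ifs at h with h2
    exact ⟨fun h3 => hv (Finset.mem_sdiff.2 ⟨h3, h2⟩), h⟩

/-- **Lower bound.** -/
theorem low (C : Ks Q) (hR : RSW Q) (M : ℕ) : ∃ (c : ℝ) (m0 : ℤ), 0 < c ∧ 1 ≤ m0 ∧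
    ∀ (D Dc Z : Finset (ℤ × ℤ)) (η : Cfg) (v₀ : ℤ × ℤ) (m L K : ℤ) (W : Set (ℤ × ℤ)), m0 ≤ m →
      C.Λ + 1 ≤ K → K * m ≤ L → L ≤ M * m → Good η → D ⊆ Dc → Z ⊆ hbox v₀ m →
      Lnd D v₀ m L K W → c * Pr Q (D \ Z) (zof Z η) (U1 v₀ Z (C.Λ * m)) ≤
        Pr Q (D \ Z) (zof Z η) (Ast Dc Z W) := by
  have hQ0 := C.hQ0
  have hΛ := C.hΛ
  have hc0 := C.hc0
  obtain ⟨c, s0, hc, hc1, hs0, hrs⟩ := rs_fk C.hQ hR M
  refine ⟨c * C.c0 * C.c0, s0, by positivity, hs0, fun D Dc Z η v₀ m L K W hm hK hL hLM hη hDc hZ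
    hLn => ?_⟩
  have e1 : (C.Λ + 1) * m ≤ K * m := mul_le_mul_of_nonneg_right hK (by omega)
  have e2 : (C.Λ + 1) * m = C.Λ * m + m := by ring
  have e3 : m ≤ C.Λ * m := by nlinarith
  have hg := good_zof (Z := Z) hη
  -- the three events
  have k1 : C.c0 ≤ Pr Q (D \ Z) (zof Z η) (Xc true v₀ m (C.Λ * m))ᶜ :=
    (C.half_ge (e := false) (b := v₀) (D := D) (η := η) (by omega) le_rfl hη
      (fun v g1 g2 g3 g4 => hLn.strip v (by omega) (by omega) g3 (by omega))).trans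
      (pr_close C.hQ hη (H469.inc_nXc false _ _ _))
  have k2 : C.c0 ≤ Pr Q (D \ Z) (zof Z η) (Xc true (v₀.1 - L, v₀.2) m (C.Λ * m))ᶜ :=
    (C.half_ge (e := false) (b := (v₀.1 - L, v₀.2)) (D := D) (η := η) (by omega) le_rfl hη
      (fun v g1 g2 g3 g4 => hLn.strip v (by dsimp only at *; omega) (by dsimp only at *; omega) g3
        (by dsimp only at *; omega))).trans
      (pr_close C.hQ hη (H469.inc_nXc false _ _ _))
  have k3 : c ≤ Pr Q (D \ Z) (zof Z η) (Hc false (v₀.1 - L) (v₀.1 - m) v₀.2 (v₀.2 + m)) := by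
    refine le_trans ?_ (pr_close C.hQ hη (inc_Hc false _ _ _ _))
    refine (hrs false (v₀.1 - L) (v₀.1 - m) v₀.2 (v₀.2 + m) D η hη (by omega) (by omega)).1
      (by omega) ?_ fun v g1 g2 g3 g4 g5 => ?_
    · have : v₀.2 + m - v₀.2 = m := by ring
      rw [this]
      omega
    · exact absurd (hLn.strip v (by omega) (by omega) g3 (by omega)) g5
  have f1 := prC_inter (Q := Q) (D := D \ Z) C.hQ hg (inc_U1 (v₀ := v₀) (Z := Z) (R := C.Λ * m))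
    (((inc_Hc false (v₀.1 - L) (v₀.1 - m) v₀.2 (v₀.2 + m)).inter (H469.inc_nXc false v₀ m
      (C.Λ * m))).inter (H469.inc_nXc false (v₀.1 - L, v₀.2) m (C.Λ * m)))
  have f2 := prC_inter (Q := Q) (D := D \ Z) C.hQ hg
    ((inc_Hc false (v₀.1 - L) (v₀.1 - m) v₀.2 (v₀.2 + m)).inter (H469.inc_nXc false v₀ m
      (C.Λ * m))) (H469.inc_nXc false (v₀.1 - L, v₀.2) m (C.Λ * m))
  have f3 := prC_inter (Q := Q) (D := D \ Z) C.hQ hg
    (inc_Hc false (v₀.1 - L) (v₀.1 - m) v₀.2 (v₀.2 + m)) (H469.inc_nXc false v₀ m (C.Λ * m))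
  rw [Bool.not_false] at f1 f2 f3
  have f4 : Pr Q (D \ Z) (zof Z η) (U1 v₀ Z (C.Λ * m) ∩
      ((Hc false (v₀.1 - L) (v₀.1 - m) v₀.2 (v₀.2 + m) ∩ (Xc true v₀ m (C.Λ * m))ᶜ) ∩
        (Xc true (v₀.1 - L, v₀.2) m (C.Λ * m))ᶜ)) ≤ Pr Q (D \ Z) (zof Z η) (Ast Dc Z W) := by
    refine Pr_mono hQ0 ?_
    rintro ω ⟨w1, ⟨w2, w3⟩, w4⟩
    exact ast_of hDc hZ (by omega) e3 (by omega) (by omega) hLn w1 w3 w4 w2
  have hU0 : 0 ≤ Pr Q (D \ Z) (zof Z η) (U1 v₀ Z (C.Λ * m)) := Pr_nonneg hQ0 _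
  have g1 : c * C.c0 ≤ Pr Q (D \ Z) (zof Z η) (Hc false (v₀.1 - L) (v₀.1 - m) v₀.2 (v₀.2 + m) ∩
      (Xc true v₀ m (C.Λ * m))ᶜ) := (mul_le_mul k3 k1 hc0.le (Pr_nonneg hQ0 _)).trans f3
  have g2 := (mul_le_mul g1 k2 hc0.le (Pr_nonneg hQ0 _)).trans f2
  have g3 := (mul_le_mul_of_nonneg_left g2 hU0).trans (f1.trans f4)
  linarith

end Vale.Agent.P167.H318.Rel
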