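import Vale.Agent.P167.H318.Rel.Low
import Vale.Agent.P167.CAQ.J1

/-!
# P167, general `q`, block REL: sealed sets near a free flat point, comparison

`mix_dom`: local functions in two domains with the same trace (ratio mixing with a rate).
`rel`: nonnegative functions of the far squares do not gain from the connection of `Z` to the target.
`cmp`: comparison of two domains on the event of the connection of `Z` to the target.
-/

namespace Vale.Agent.P167.H318.Rel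

open Finset Relation Vale.Agent.P167.FK Vale.Agent.P167.FKA
open Vale.Agent.P167.BR (sites hbox Jn)
open Vale.Agent.P167.H192.Q (SRSW Fr)
open Vale.Agent.P167.H469 (Ks exists_Ks)
open Vale.Agent.P167.H519 (Rat)

variable {Q : ℝ} {D D' Dc Dc' Z V : Finset (ℤ × ℤ)} {η η' ζ : Cfg} {v₀ x : ℤ × ℤ} {r R m L K : ℤ}
  {W W' : Set (ℤ × ℤ)} {F G : Cfg → ℝ}

/-! ### Two domains with the same trace -/

theorem fr_cf (h : Fr x R D η) (S : Finset (ℤ × ℤ)) : Fr x R (D ∩ Bq x R) (cf D η S) := by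
  intro v hv hvA
  have hvD : v ∉ D := fun hvD => hvA (Finset.mem_inter.2 ⟨hvD, hv⟩)
  rw [cf_out hvD]
  exact h v hv hvD

/-- **Ratio mixing at a free boundary, with a rate**, two domains with the same trace. -/
theorem mix_dom (hQ : 1 ≤ Q) {α C : ℝ} (hα : 0 < α) (hC : 0 < C) (h : ArmDec Q α C) (hL : Rat Q L)
    (hr : 1 ≤ r) (hR : L * (L * r) ≤ R) (hDD : D ∩ Bq x R = D' ∩ Bq x R) (hVD : V ⊆ D)
    (hV : V ⊆ Bq x r) (hF0 : ∀ ω, 0 ≤ F ω) (hFV : Loc V F) (hη : Good η) (hη' : Good η')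
    (hfr : Fr x R D η) (hfr' : Fr x R D' η') :
    |Ex Q D η F - Ex Q D' η' F| ≤ 8 * (2 + 2 ^ α) * C * ((r : ℝ) / R) ^ (α / 2) * Ex Q D' η' F := by
  have hQ0 : 0 < Q := by linarith
  obtain ⟨t, ht⟩ : ∃ t : ℝ, t = 8 * (2 + 2 ^ α) * C * ((r : ℝ) / R) ^ (α / 2) := ⟨_, rfl⟩
  have hsc := H192.Q.scale_le hL hr hR
  have hVA : V ⊆ D ∩ Bq x R := Finset.subset_inter hVD
    (hV.trans (H167.Q.bq_mono (hsc.1.trans hsc.2)))
  have key : ∀ S S', |Ex Q (D ∩ Bq x R) (cf D η S) F - Ex Q (D ∩ Bq x R) (cf D' η' S') F| ≤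
      t * Ex Q (D ∩ Bq x R) (cf D' η' S') F := by
    intro S S'
    rw [ht]
    refine CAQ.J.mix_b hQ hα hC h hL true hr hR hVA hV hF0 hFV (f_good.1 _ _ _ hη) (fr_cf hfr S)
      (f_good.1 _ _ _ hη') ?_
    have := fr_cf hfr' S'
    rw [← hDD] at this
    exact this
  rw [← ht, H259.f_markov Q (D ∩ Bq x R) D η F hQ0 Finset.inter_subset_left hη,
    H259.f_markov Q (D ∩ Bq x R) D' η' F hQ0 (hDD ▸ Finset.inter_subset_left) hη']
  -- from above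
  have u1 : ∀ S', Ex Q D η (fun ω => Ex Q (D ∩ Bq x R) ω F) ≤
      (1 + t) * Ex Q (D ∩ Bq x R) (cf D' η' S') F := by
    intro S'
    rw [← Ex_const hQ0 (D := D) (η := η) ((1 + t) * Ex Q (D ∩ Bq x R) (cf D' η' S') F)]
    refine Ex_mono hQ0 fun S _ => ?_
    have := (abs_le.1 (key S S')).2
    linarith
  have u2 : Ex Q D η (fun ω => Ex Q (D ∩ Bq x R) ω F) ≤
      (1 + t) * Ex Q D' η' (fun ω => Ex Q (D ∩ Bq x R) ω F) := by
    rw [← Ex_const hQ0 (D := D') (η := η') (Ex Q D η (fun ω => Ex Q (D ∩ Bq x R) ω F)),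
      ← Ex_mul_left]
    exact Ex_mono hQ0 fun S' _ => u1 S'
  have l1 : ∀ S', (1 - t) * Ex Q (D ∩ Bq x R) (cf D' η' S') F ≤
      Ex Q D η (fun ω => Ex Q (D ∩ Bq x R) ω F) := by
    intro S'
    rw [← Ex_const hQ0 (D := D) (η := η) ((1 - t) * Ex Q (D ∩ Bq x R) (cf D' η' S') F)]
    refine Ex_mono hQ0 fun S _ => ?_
    have := (abs_le.1 (key S S')).1
    linarith
  have l2 : (1 - t) * Ex Q D' η' (fun ω => Ex Q (D ∩ Bq x R) ω F) ≤
      Ex Q D η (fun ω => Ex Q (D ∩ Bq x R) ω F) := by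
    rw [← Ex_const hQ0 (D := D') (η := η') (Ex Q D η (fun ω => Ex Q (D ∩ Bq x R) ω F)),
      ← Ex_mul_left]
    exact Ex_mono hQ0 fun S' _ => l1 S'
  rw [abs_le]
  constructor <;> linarith

/-! ### Flat points -/

theorem Fl.fr (h : Fl D Dc η v₀ R) : Fr v₀ R D η := h.out

theorem Fl.trace (h : Fl D Dc η v₀ R) (h' : Fl D' Dc' η' v₀ R) : D ∩ Bq v₀ R = D' ∩ Bq v₀ R := by
  ext v
  rw [Finset.mem_inter, Finset.mem_inter]
  constructor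
  · rintro ⟨h1, h2⟩
    exact ⟨(h'.dom v h2).2 ((h.dom v h2).1 h1), h2⟩
  · rintro ⟨h1, h2⟩
    exact ⟨(h.dom v h2).2 ((h'.dom v h2).1 h1), h2⟩

theorem hbox_Bq (h : r ≤ R) : hbox v₀ r ⊆ Bq v₀ R := by
  intro v hv
  rw [mem_hbox] at hv
  rw [mem_Bq]
  omega

theorem fr_zof (h : Fr x R D η) : Fr x R (D \ Z) (zof Z η) := by
  intro v hv hvA
  unfold zof
  split_ifs with h1
  · rfl
  · exact h v hv fun h2 => hvA (Finset.mem_sdiff.2 ⟨h2, h1⟩)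

theorem Fl.sub_hbox (h : Fl D Dc η v₀ R) (hr : r ≤ R) : hbox v₀ r ⊆ D :=
  h.hbox_sub hr subset_rfl

theorem loc_On : Loc Z ((On Z ζ).indicator (1 : Cfg → ℝ)) := by
  intro ω ω' h
  have h1 : ω ∈ On Z ζ ↔ ω' ∈ On Z ζ := forall₂_congr fun v hv => by rw [h v hv]
  by_cases h2 : ω ∈ On Z ζ
  · rw [Set.indicator_of_mem h2, Set.indicator_of_mem (h1.1 h2)]
    rfl
  · rw [Set.indicator_of_notMem h2, Set.indicator_of_notMem fun h3 => h2 (h1.2 h3)]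

theorem sld_false : Sld v₀ Z (fun _ => false) := fun _ _ _ _ _ _ => rfl

/-- The closed squares have positive probability. -/
theorem pr_on_pos (hQ : 0 < Q) (hZD : Z ⊆ D) : 0 < Pr Q D η (On Z fun _ => false) := by
  unfold Pr Ex
  refine div_pos (Finset.sum_pos' (fun S _ => mul_nonneg (pow_nonneg hQ.le _) (ind_nonneg _ _))
    ⟨∅, Finset.empty_mem_powerset D, ?_⟩) (Zq_pos hQ D η)
  refine mul_pos (pow_pos hQ _) ?_
  rw [Set.indicator_of_mem]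
  · exact one_pos
  · intro v hv
    rw [H519.cf_in (hZD hv)]
    simp

/-! ### Constants -/

/-- `K` is large. -/
def Kok (C : Ks Q) (K : ℤ) : Prop := C.Λ + 1 ≤ K ∧ C.L * (C.L * C.Λ) ≤ K

theorem exists_K (C : Ks Q) : ∃ K : ℤ, 1 ≤ K ∧ Kok C K :=
  ⟨max 1 (max (C.Λ + 1) (C.L * (C.L * C.Λ))), le_max_left _ _,
    (le_max_left _ _).trans (le_max_right _ _), (le_max_right _ _).trans (le_max_right _ _)⟩

theorem Kok.scale {C : Ks Q} (h : Kok C K) (hm : 1 ≤ m) :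
    m + 1 ≤ C.Λ * m ∧ C.Λ * m + 1 ≤ K * m ∧ C.L * (C.L * (C.Λ * m)) ≤ K * m ∧
      C.L * (C.L * m) ≤ K * m := by
  have hΛ := C.hΛ
  have hL := C.hL.1
  have e1 : (C.Λ + 1) * m ≤ K * m := mul_le_mul_of_nonneg_right h.1 (by omega)
  have e2 : C.L * (C.L * C.Λ) * m ≤ K * m := mul_le_mul_of_nonneg_right h.2 (by omega)
  have e3 : m + 1 ≤ C.Λ * m := by nlinarith
  have e4 : C.L * (C.L * m) ≤ C.L * (C.L * (C.Λ * m)) := by
    have : 0 ≤ C.L * C.L := by positivity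
    nlinarith
  refine ⟨e3, by nlinarith, by nlinarith, by nlinarith⟩

/-- The functions of the far squares without `Z`. -/
theorem ex_far (C : Ks Q) (hK : Kok C K) (hm : 1 ≤ m) (hZ : Z ⊆ hbox v₀ m)
    (hF : Fl D Dc η v₀ (K * m)) (hG0 : ∀ ω, 0 ≤ G ω) (hG : Ind (D ∩ Bq v₀ (K * m)) G) :
    Ex Q (D \ Z) (zof Z η) G ≤ 8 * Ex Q D η G := by
  have hQ0 := C.hQ0
  obtain ⟨s1, s2, s3, s4⟩ := hK.scale hm
  have hZD : Z ⊆ D := hF.hbox_sub (by omega) hZ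
  have hZB : Z ⊆ Bq v₀ m := hZ.trans (hbox_Bq le_rfl)
  have hGZ : Ind Z G := hG.mono (Finset.subset_inter hZD (hZ.trans (hbox_Bq (by omega))))
  have h1 := (H192.Q.rat_bdy_mul (Q := Q) (x := v₀) (r := m) (R := K * m) (D := D) (D' := D)
    (η := η) (η' := η) (V := Z) (F := (On Z fun _ => false).indicator 1) (G := G) C.hQ C.hL hm s4
    rfl hZD hZB (fun _ => ind_nonneg _ _) loc_On hF.good hF.good hF.fr hF.fr hG0 hG).1
  have h2 := split hQ0 (hF.mono (by omega : m + 1 ≤ K * m)) hZ sld_false hGZ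
  have h3 : Ex Q D η (fun ω => G ω * (On Z fun _ => false).indicator 1 ω) =
      Ex Q D η (fun ω => (On Z fun _ => false).indicator 1 ω * G ω) :=
    Ex_congr fun S _ => mul_comm _ _
  rw [h3, h2] at h1
  have h4 : 0 < Pr Q D η (On Z fun _ => false) := pr_on_pos hQ0 hZD
  have h5 : Pr Q D η (On Z fun _ => false) * Ex Q (D \ Z) (zof Z η) G ≤
      Pr Q D η (On Z fun _ => false) * (8 * Ex Q D η G) := by
    refine h1.trans (le_of_eq ?_)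
    show 8 * (Ex Q D η G * Pr Q D η (On Z fun _ => false)) = _
    ring
  exact le_of_mul_le_mul_left h5 h4

/-- The functions of the far squares and the connection to distance `Λ m`. -/
theorem ex_far_U1 (C : Ks Q) (hK : Kok C K) (hm : 1 ≤ m) (hZ : Z ⊆ hbox v₀ m)
    (hF : Fl D Dc η v₀ (K * m)) (hG0 : ∀ ω, 0 ≤ G ω) (hG : Ind (D ∩ Bq v₀ (K * m)) G) :
    Ex Q (D \ Z) (zof Z η) (fun ω => G ω * (U1 v₀ Z (C.Λ * m)).indicator 1 ω) ≤
      64 * (Ex Q D η G * Pr Q (D \ Z) (zof Z η) (U1 v₀ Z (C.Λ * m))) := by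
  have hQ0 := C.hQ0
  obtain ⟨s1, s2, s3, s4⟩ := hK.scale hm
  have hg := good_zof (Z := Z) hF.good
  have h1 := (H192.Q.rat_bdy_mul (Q := Q) (x := v₀) (r := C.Λ * m) (R := K * m) (D := D \ Z)
    (D' := D \ Z) (η := zof Z η) (η' := zof Z η) (V := hbox v₀ (C.Λ * m) \ Z)
    (F := (U1 v₀ Z (C.Λ * m)).indicator 1) (G := G) C.hQ C.hL (by omega) s3 rfl
    (Finset.sdiff_subset_sdiff (hF.sub_hbox (by omega)) subset_rfl)
    (Finset.sdiff_subset.trans (hbox_Bq le_rfl)) (fun _ => ind_nonneg _ _) loc_U1 hg hg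
    (fr_zof hF.fr) (fr_zof hF.fr) hG0 (hG.mono (Finset.inter_subset_inter_right
      Finset.sdiff_subset))).1
  have h2 := ex_far C hK hm hZ hF hG0 hG
  have h3 : 0 ≤ Pr Q (D \ Z) (zof Z η) (U1 v₀ Z (C.Λ * m)) := Pr_nonneg hQ0 _
  have h4 := mul_le_mul_of_nonneg_right h2 h3
  refine h1.trans ?_
  show 8 * (Ex Q (D \ Z) (zof Z η) G * Pr Q (D \ Z) (zof Z η) (U1 v₀ Z (C.Λ * m))) ≤ _
  linarith

theorem far_mono (h : Far v₀ R W) (hr : r ≤ R) : Far v₀ r W := fun w hw => hr.trans (h w hw)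

/-- **Functions of the far squares and the connection to the target.** -/
theorem rel (hQ : 1 ≤ Q) (hR : RSW Q) (hS : SRSW Q) : ∃ K : ℤ, 1 ≤ K ∧ ∀ M : ℕ,
    ∃ (C : ℝ) (m0 : ℤ), 0 < C ∧ 1 ≤ m0 ∧ ∀ (D Dc Z : Finset (ℤ × ℤ)) (η : Cfg) (v₀ : ℤ × ℤ)
      (m L : ℤ) (W : Set (ℤ × ℤ)) (G : Cfg → ℝ), m0 ≤ m → K * m ≤ L → L ≤ M * m →
      Z ⊆ hbox v₀ m → Fl D Dc η v₀ (K * m) → Lnd D v₀ m L K W → Far v₀ (K * m) W →
      (∀ ω, 0 ≤ G ω) → Ind (D ∩ Bq v₀ (K * m)) G →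
      Ex Q (D \ Z) (zof Z η) (fun ω => G ω * (Ast Dc Z W).indicator 1 ω) ≤
        C * (Ex Q D η G * Pr Q (D \ Z) (zof Z η) (Ast Dc Z W)) := by
  obtain ⟨C⟩ := exists_Ks hQ hR hS
  obtain ⟨K, hK1, hK⟩ := exists_K C
  refine ⟨K, hK1, fun M => ?_⟩
  obtain ⟨c, m0, hc, hm0, hlow⟩ := low C hR M
  refine ⟨64 / c, m0, by positivity, hm0, fun D Dc Z η v₀ m L W G hm hL hLM hZ hF hLn hW hG0 hG
    => ?_⟩
  have hQ0 := C.hQ0
  obtain ⟨s1, s2, s3, s4⟩ := hK.scale (show 1 ≤ m by omega)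
  have h1 := hlow D Dc Z η v₀ m L K W hm hK.1 hL hLM hF.good hF.sub hZ hLn
  have h2 := ex_far_U1 C hK (by omega) hZ hF hG0 hG
  have h3 : Ex Q (D \ Z) (zof Z η) (fun ω => G ω * (Ast Dc Z W).indicator 1 ω) ≤
      Ex Q (D \ Z) (zof Z η) (fun ω => G ω * (U1 v₀ Z (C.Λ * m)).indicator 1 ω) := by
    refine Ex_mono hQ0 fun S _ => mul_le_mul_of_nonneg_left ?_ (hG0 _)
    exact H519.ind_le_of_imp fun h => ast_sub (hF.mono (by omega)) hZ (by omega)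
      (far_mono hW (by omega)) h
  have h4 : 0 ≤ Ex Q D η G := Ex_nonneg hQ0 fun S _ => hG0 _
  refine (h3.trans h2).trans ?_
  have h5 := mul_le_mul_of_nonneg_left h1 h4
  rw [div_mul_eq_mul_div, le_div_iff₀ hc]
  nlinarith

/-- **The same on the event `ω = ζ` on `Z`.** -/
theorem rel_on (hQ : 1 ≤ Q) (hR : RSW Q) (hS : SRSW Q) : ∃ K : ℤ, 1 ≤ K ∧ ∀ M : ℕ,
    ∃ (C : ℝ) (m0 : ℤ), 0 < C ∧ 1 ≤ m0 ∧ ∀ (D Dc Z : Finset (ℤ × ℤ)) (η ζ : Cfg) (v₀ : ℤ × ℤ)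
      (m L : ℤ) (W : Set (ℤ × ℤ)) (G : Cfg → ℝ), m0 ≤ m → K * m ≤ L → L ≤ M * m →
      Z ⊆ hbox v₀ m → Sld v₀ Z ζ → Fl D Dc η v₀ (K * m) → Lnd D v₀ m L K W →
      Far v₀ (K * m) W → (∀ ω, 0 ≤ G ω) → Ind (D ∩ Bq v₀ (K * m)) G →
      Ex Q D η (fun ω => (On Z ζ).indicator 1 ω * ((Ast Dc Z W).indicator 1 ω * G ω)) ≤
        C * (Ex Q D η G *
          Ex Q D η (fun ω => (On Z ζ).indicator 1 ω * (Ast Dc Z W).indicator 1 ω)) := by
  obtain ⟨K, hK1, hrel⟩ := rel hQ hR hS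
  refine ⟨max K 2, by omega, fun M => ?_⟩
  obtain ⟨C, m0, hC, hm0, h⟩ := hrel M
  refine ⟨C, m0, hC, hm0, fun D Dc Z η ζ v₀ m L W G hm hL hLM hZ hζ hF hLn hW hG0 hG => ?_⟩
  have hQ0 : 0 < Q := by linarith
  have e1 : K * m ≤ max K 2 * m := mul_le_mul_of_nonneg_right (le_max_left _ _) (by omega)
  have e2 : 2 * m ≤ max K 2 * m := mul_le_mul_of_nonneg_right (le_max_right _ _) (by omega)
  have hLn' : Lnd D v₀ m L K W := ⟨fun v g1 g2 g3 g4 => hLn.strip v (by omega) (by omega) g3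
    (by omega), fun x g1 g2 g3 => hLn.foot x (by omega) (by omega) g3⟩
  have hZD : Z ⊆ D := hF.hbox_sub (by omega) hZ
  have hZB : Z ⊆ D ∩ Bq v₀ (max K 2 * m) :=
    Finset.subset_inter hZD (hZ.trans (hbox_Bq (by omega)))
  have hGZ : Ind Z G := hG.mono hZB
  -- a function of the squares outside of the smaller box
  have h1 := split hQ0 (hF.mono (by omega : m + 1 ≤ max K 2 * m)) hZ hζ
    (F := fun ω => (Ast Dc Z W).indicator 1 ω * G ω) (fun ω ω' h => by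
      dsimp only
      rw [ind_Ast ω ω' h, hGZ ω ω' h])
  have h2 := split hQ0 (hF.mono (by omega : m + 1 ≤ max K 2 * m)) hZ hζ
    (F := (Ast Dc Z W).indicator 1) ind_Ast
  have hsub : D ∩ Bq v₀ (K * m) ⊆ D ∩ Bq v₀ (max K 2 * m) :=
    Finset.inter_subset_inter_left (H167.Q.bq_mono e1)
  have h3 := h D Dc Z η v₀ m L W G hm (by omega) hLM hZ (hF.mono e1) hLn' (far_mono hW e1) hG0
    (hG.mono hsub)
  have h4 : Ex Q (D \ Z) (zof Z η) (fun ω => (Ast Dc Z W).indicator 1 ω * G ω) =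
      Ex Q (D \ Z) (zof Z η) (fun ω => G ω * (Ast Dc Z W).indicator 1 ω) :=
    Ex_congr fun S _ => mul_comm _ _
  rw [h1, h2, h4]
  have h5 := mul_le_mul_of_nonneg_left h3 (Pr_nonneg hQ0 (On Z ζ) : 0 ≤ Pr Q D η (On Z ζ))
  refine h5.trans (le_of_eq ?_)
  show _ = C * (Ex Q D η G * (Pr Q D η (On Z ζ) * Pr Q (D \ Z) (zof Z η) (Ast Dc Z W)))
  ring

/-- **Comparison of two domains.** -/
theorem cmp (hQ : 1 ≤ Q) (hR : RSW Q) (hS : SRSW Q) : ∃ K : ℤ, 1 ≤ K ∧ ∀ M : ℕ,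
    ∃ (C : ℝ) (m0 : ℤ), 0 < C ∧ 1 ≤ m0 ∧ ∀ (D Dc D' Dc' Z : Finset (ℤ × ℤ)) (η η' ζ : Cfg)
      (v₀ : ℤ × ℤ) (m L : ℤ) (W W' : Set (ℤ × ℤ)), m0 ≤ m → K * m ≤ L → L ≤ M * m →
      Z ⊆ hbox v₀ m → Sld v₀ Z ζ → Fl D Dc η v₀ (K * m) → Far v₀ (K * m) W →
      Fl D' Dc' η' v₀ (K * m) → Lnd D' v₀ m L K W' →
      Ex Q D η (fun ω => (On Z ζ).indicator 1 ω * (Ast Dc Z W).indicator 1 ω) ≤
        C * Ex Q D' η' (fun ω => (On Z ζ).indicator 1 ω * (Ast Dc' Z W').indicator 1 ω) := by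
  obtain ⟨C⟩ := exists_Ks hQ hR hS
  obtain ⟨K, hK1, hK⟩ := exists_K C
  refine ⟨K, hK1, fun M => ?_⟩
  obtain ⟨c, m0, hc, hm0, hlow⟩ := low C hR M
  refine ⟨8 / c, m0, by positivity, hm0, fun D Dc D' Dc' Z η η' ζ v₀ m L W W' hm hL hLM hZ hζ hF
    hW hF' hLn' => ?_⟩
  have hQ0 := C.hQ0
  obtain ⟨s1, s2, s3, s4⟩ := hK.scale (show 1 ≤ m by omega)
  have h1 := hlow D' Dc' Z η' v₀ m L K W' hm hK.1 hL hLM hF'.good hF'.sub hZ hLn'
  have hZR : Z ⊆ hbox v₀ (C.Λ * m) := hZ.trans fun v hv => by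
    rw [mem_hbox] at hv ⊢
    omega
  have h2 : Ex Q D η (fun ω => (On Z ζ).indicator 1 ω * (Ast Dc Z W).indicator 1 ω) ≤
      Ex Q D η (fun ω => (On Z ζ).indicator 1 ω * (U1 v₀ Z (C.Λ * m)).indicator 1 ω) := by
    refine Ex_mono hQ0 fun S _ => mul_le_mul_of_nonneg_left ?_ (ind_nonneg _ _)
    exact H519.ind_le_of_imp fun h => ast_sub (hF.mono (by omega)) hZ (by omega)
      (far_mono hW (by omega)) h
  have h3 := H192.Q.rat_bdy_dom (Q := Q) (x := v₀) (r := C.Λ * m) (R := K * m) (D := D) (D' := D')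
    (η := η) (η' := η') (V := hbox v₀ (C.Λ * m))
    (F := fun ω => (On Z ζ).indicator 1 ω * (U1 v₀ Z (C.Λ * m)).indicator 1 ω) C.hQ C.hL (by omega)
    s3 (hF.trace hF') (hF.sub_hbox (by omega)) (hbox_Bq le_rfl)
    (fun _ => mul_nonneg (ind_nonneg _ _) (ind_nonneg _ _)) (fun ω ω' h => by
      dsimp only
      rw [loc_On ω ω' fun v hv => h v (hZR hv), loc_U1 ω ω' fun v hv => h v
        (Finset.mem_sdiff.1 hv).1]) hF.good hF'.good hF.fr hF'.fr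
  have h4 := split hQ0 (hF'.mono (by omega : m + 1 ≤ K * m)) hZ hζ
    (F := (U1 v₀ Z (C.Λ * m)).indicator 1) (loc_U1.ind Finset.sdiff_disjoint)
  have h5 := split hQ0 (hF'.mono (by omega : m + 1 ≤ K * m)) hZ hζ
    (F := (Ast Dc' Z W').indicator 1) ind_Ast
  have h6 := mul_le_mul_of_nonneg_left h1 (Pr_nonneg hQ0 (On Z ζ) : 0 ≤ Pr Q D' η' (On Z ζ))
  rw [h5, div_mul_eq_mul_div, le_div_iff₀ hc]
  rw [h4] at h3
  have h7 := h2.trans h3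
  have h8 : Pr Q D' η' (On Z ζ) * (c * Pr Q (D' \ Z) (zof Z η') (U1 v₀ Z (C.Λ * m))) ≤
      Pr Q D' η' (On Z ζ) * Pr Q (D' \ Z) (zof Z η') (Ast Dc' Z W') := h6
  have h9 : Ex Q D η (fun ω => (On Z ζ).indicator 1 ω * (Ast Dc Z W).indicator 1 ω) ≤
      8 * (Pr Q D' η' (On Z ζ) * Pr Q (D' \ Z) (zof Z η') (U1 v₀ Z (C.Λ * m))) := h7
  show _ ≤ 8 * (Pr Q D' η' (On Z ζ) * Pr Q (D' \ Z) (zof Z η') (Ast Dc' Z W'))
  have h10 := mul_le_mul_of_nonneg_left h9 hc.le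
  linarith

/-- **The configuration of `Z` in two domains.** -/
theorem on_mix (hQ : 1 ≤ Q) (hR : RSW Q) : ∃ (α C : ℝ) (K : ℤ), 0 < α ∧ 0 < C ∧ 1 ≤ K ∧
    ∀ (D Dc D' Dc' Z : Finset (ℤ × ℤ)) (η η' ζ : Cfg) (v₀ : ℤ × ℤ) (r R : ℤ), 1 ≤ r → K * r ≤ R →
      Z ⊆ hbox v₀ r → Fl D Dc η v₀ R → Fl D' Dc' η' v₀ R →
      |Pr Q D η (On Z ζ) - Pr Q D' η' (On Z ζ)| ≤ C * ((r : ℝ) / R) ^ α * Pr Q D' η' (On Z ζ) := by
  obtain ⟨α, C, hα, hC, hA, -⟩ := arm_fk hQ hR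
  obtain ⟨L, hL⟩ := H208.rat_of hQ hR
  have hL1 := hL.1
  refine ⟨α / 2, 8 * (2 + 2 ^ α) * C, L * L, by positivity, by positivity, by nlinarith,
    fun D Dc D' Dc' Z η η' ζ v₀ r R hr hR hZ hF hF' => ?_⟩
  have hLr : L * (L * r) ≤ R := by linarith
  have hrR := (H192.Q.scale_le hL hr hLr).1.trans (H192.Q.scale_le hL hr hLr).2
  exact mix_dom hQ hα hC hA hL hr hLr (hF.trace hF') (hF.hbox_sub hrR hZ)
    (hZ.trans (hbox_Bq le_rfl)) (fun _ => ind_nonneg _ _) loc_On hF.good hF'.good hF.fr hF'.fr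

end Vale.Agent.P167.H318.Rel
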